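import Crest.Agent.X262.Conc78.A
import Crest.Agent.X262.End66.Loc
import Crest.Agent.X262.Eqi18.Main
import Crest.Agent.X262.Node22.Chn
import Crest.Agent.X262.Tree87.Rank

/-!
# Row 262, road B (helper78): the concave end, the term level step

* `same_TB`, `same_TD`, `rk_TB` : the three systems of equations;
* `dir_loc`, `Cn.dir_TD`, `Cn.sv_TD`, `root_of` : the direction of the section is normal to the end;
* `cq_step`, `step` : the excess class of `T` is the excess class of the end times `ob (λ)`.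
-/

set_option autoImplicit false
set_option linter.unusedSectionVars false

noncomputable section

namespace Crest.Agent.X262.Conc78

open Crest.Agent.X277 Crest.Agent.X277.BD
open Crest.Agent.X262.Hb Crest.Agent.X262.Vb
open Crest.Agent.X262.End66 (sum Loc Same loc_of_mem dp jac_eq dp_mul pv_of_eq dp_of_eq)
open Crest.Agent.X262.Node22 (mem_Eb mem_Vt)

variable {J : Type} [Fintype J] [DecidableEq J] {io : J → Type} [∀ j, Fintype (io j)]
  [∀ j, DecidableEq (io j)] {A A' : Type} [Fintype A] [Fintype A']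
  {I K E : Type} [Fintype I] [Field K] [Algebra ℂ K] [Field E] [Algebra ℂ E] {d : J → ℕ}
  {T : Tgt io A} {c : ℕ}

theorem loc_self (T : Tgt io A) (a : A) : Loc T (T.F a) :=
  loc_of_mem (Ideal.subset_span ⟨a, rfl⟩)

theorem dp_vr (y : Pnt io E) (w : Vr io → E) (j : J) (i : io j) : dp y w (vr j i) = w ⟨j, i⟩ := by
  simp [dp, pv, MvPolynomial.pderiv_X, Pi.single_apply, apply_ite]

theorem dp_sub (y : Pnt io E) (w : Vr io → E) (g h : MvPolynomial (Vr io) ℂ) :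
    dp y w (g - h) = dp y w g - dp y w h := by
  simp only [dp, pv, map_sub, sub_mul, Finset.sum_sub_distrib]

theorem r_sub' {p : Pl ℂ K ℂ E} {x y : K} (hx : x ∈ p.V.1) (hy : y ∈ p.V.1) :
    p.r (x - y) = p.r x - p.r y :=
  eq_sub_of_add_eq (by rw [← Pl.r_add (sub_mem hx hy) hy, sub_add_cancel])

/-- the direction of an equation which is locally in the ideal -/
theorem dir_loc {g : MvPolynomial (Vr io) ℂ} (hL : Loc T g) {p : LP K E} {y : Pnt io K}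
    (hy : Prim p.V y) (hO : T.On (redP p.toPl y)) {u : K} (hu : ∀ a, u * pv y (T.F a) ∈ p.V.1)
    (hg : u * pv y g ∈ p.V.1) {v : Vr io → E}
    (hv : T.jac (redP p.toPl y) v = fun a => p.r (u * pv y (T.F a))) :
    dp (redP p.toPl y) v g = p.r (u * pv y g) := by
  obtain ⟨h, w, h0, e⟩ := hL.ex hy.nz_red hO
  have h1 : ∀ j i, y j i ∈ p.V.1 := fun j => (hy j).1
  refine mul_left_cancel₀ h0 ?_
  rw [dp_of_eq e hO (hL.on hy.nz_red hO), hv, ← r_pv p.lnr h1, ← Pl.r_mul (pv_mem h1 _) hg,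
    mul_left_comm, pv_of_eq e, Finset.mul_sum,
    Tree87.r_sum _ fun a _ => by rw [mul_left_comm]; exact mul_mem (pv_mem h1 _) (hu a)]
  exact Finset.sum_congr rfl fun a _ => by
    rw [mul_left_comm, Pl.r_mul (pv_mem h1 _) (hu a), r_pv p.lnr h1]

/-- the class of the divisor is a root if the direction of the section is normal -/
theorem root_of {B : Th} (hB : B.Ax) [Algebra.EssFiniteType ℂ E] {z : Cfg io I K} (hz : z.NZ)
    (hO : ¬ z.On T) (p : LP K E)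
    (hs : ∀ u : K, (∀ x, u * (z.gau (z.nrm p.V)).sv T x ∈ p.V.1) →
      (fun x => p.r (u * (z.gau (z.nrm p.V)).sv T x)) ∈ (z.red p.toPl).Eb T) :
    (cpz B T (z.red p.toPl)).eval (B.pb p (B.c1 (z.dv T))) = 0 := by
  have hP := Cfg.pr_nrm hz p.V
  have h0 : (z.gau (z.nrm p.V)).sv T ≠ 0 := fun h0 =>
    hO ((Cfg.on_gau T (Cfg.nrm_ne p.V z)).1 ((Cfg.on_iff T).2 h0))
  have hd := Cfg.dv_gau T hz (Cfg.nrm_ne p.V z)
  have h1 : p.V.v ((z.dv T).gen p.V) =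
      (nm ((z.gau (z.nrm p.V)).ea T) p.V ((z.gau (z.nrm p.V)).sv T))⁻¹ := by
    rw [v_gen, ← hd, Cfg.dv, val_neg, val_sz h0]
  have h2 := Node22.eval_dir hB p (hP.val_ea T) h0 h1 (hs _ fun x => RZ.le_one_iff.1 (by
    have h3 := le_nm ((z.gau (z.nrm p.V)).ea T) p.V ((z.gau (z.nrm p.V)).sv T) x
    rw [hP.val_ea T, mul_one] at h3
    rw [map_mul, h1, inv_mul_le_iff₀ (nm_pos h0), mul_one]
    exact h3))
  rw [← Cfg.ea_red0 T hP, ← Cfg.dv, hd] at h2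
  exact h2

theorem cq_step {R : Type*} [CommRing R] {P P' Q o : Polynomial R} {r : ℕ} (hr : r ≠ 0) {δ l : R}
    (h : P = Q * ((-Polynomial.X) ^ r * o.comp (Polynomial.X + Polynomial.C l)))
    (h' : P' = Q * (-Polynomial.X) ^ r) (h0 : P'.eval δ = 0) :
    (-P.divX).eval δ = (-P'.divX).eval δ * o.eval l := by
  obtain ⟨r, rfl⟩ := Nat.exists_eq_succ_of_ne_zero hr
  have e : ∀ S : Polynomial R, (Polynomial.X * S).divX = S := fun S => by
    ext m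
    rw [Polynomial.coeff_divX, Polynomial.coeff_X_mul]
  have h1 : P' = Polynomial.X * (-Q * (-Polynomial.X) ^ r) := by rw [h', pow_succ]; ring
  have h2 : P = Polynomial.X * (-Q * (-Polynomial.X) ^ r *
      o.comp (Polynomial.X + Polynomial.C l)) := by rw [h, pow_succ]; ring
  obtain ⟨t, ht⟩ := Polynomial.sub_dvd_eval_sub (δ + l) l o
  rw [h1, Polynomial.eval_mul, Polynomial.eval_X] at h0
  rw [h1, h2, e, e, Polynomial.eval_neg, Polynomial.eval_neg, Polynomial.eval_mul,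
    Polynomial.eval_comp, Polynomial.eval_add, Polynomial.eval_X, Polynomial.eval_C]
  linear_combination (-Polynomial.eval δ (-Q * (-Polynomial.X) ^ r)) * ht - t * h0

namespace Cn

variable {n : Cn io}

theorem same_TB (hL : ∀ b, Loc T (n.uT.F b)) : Same T (n.TB T) :=
  ⟨fun b => b.rec (loc_self T) hL, fun a => loc_self (n.TB T) (Sum.inl a)⟩

theorem rk_TB (hG : Good T c d) (hL : ∀ b, Loc T (n.uT.F b)) : End66.Rk (n.TB T) c d :=
  (same_TB hL).rk (End66.rk_of_good hG)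

variable (n T) in
theorem same_TD : Same (n.TD T) (sum T n.xT) := by
  refine ⟨?_, ?_⟩
  · rintro (a | p)
    · exact loc_self (n.TD T) (Sum.inl (Sum.inl a))
    · exact loc_self (n.TD T) (Sum.inr p)
  · rintro ((a | b) | p)
    · exact loc_self (sum T n.xT) (Sum.inl a)
    · exact loc_of_mem (sub_mem
        (Ideal.mul_mem_right _ _ (Ideal.subset_span ⟨Sum.inr b.1, rfl⟩))
        (Ideal.mul_mem_right _ _ (Ideal.subset_span ⟨Sum.inr b.2, rfl⟩)))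
    · exact loc_self (sum T n.xT) (Sum.inr p)

theorem dp_xi (y : Pnt io E) (w : Vr io → E) (p : n.KL) :
    dp y w (n.xi p) = w ⟨n.jC, n.f (some p)⟩ := dp_vr _ _ _ _

theorem dp_u {y : Pnt io E} (h : n.xT.On y) (w : Vr io → E) (b : n.KL × n.KL) :
    dp y w (n.uT.F b) = w ⟨n.jC, n.f (some b.1)⟩ * pv y (n.tp b.2) -
      w ⟨n.jC, n.f (some b.2)⟩ * pv y (n.tp b.1) := by
  change dp y w (_ - _) = _
  rw [dp_sub, dp_mul, dp_mul, dp_xi, dp_xi, show pv y (n.xi b.1) = 0 from h _,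
    show pv y (n.xi b.2) = 0 from h _]
  ring

theorem exists_tp {y : Pnt io E} (h : NZ y) : ∃ p, pv y (n.tp p) ≠ 0 := by
  obtain ⟨k, hk⟩ := h n.jU
  obtain ⟨l, hl⟩ := h n.jS
  exact ⟨(k, l), (n.pv_tp y _).trans_ne (mul_ne_zero hk hl)⟩

theorem dir_TD (hL : ∀ b, Loc T (n.uT.F b)) (hv : n.Nv T) {p : LP K E} {y : Pnt io K}
    (hy : Prim p.V y) (hO : (n.TD T).On (redP p.toPl y)) {u : K}
    (hu : ∀ a, u * pv y ((n.TD T).F a) ∈ p.V.1)
    (h : (fun a => p.r (u * pv y (T.F a))) ∈ T.Nm (redP p.toPl y)) :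
    (fun a => p.r (u * pv y ((n.TD T).F a))) ∈ (n.TD T).Nm (redP p.toPl y) := by
  obtain ⟨v, hv1⟩ := h
  have h1 : ∀ j i, y j i ∈ p.V.1 := fun j => (hy j).1
  obtain ⟨⟨hT, -⟩, hx⟩ := (on_sum.trans (and_congr_left' on_sum)).1 hO
  obtain ⟨w, hw, hw'⟩ := hv E _ hy.nz_red (on_sum.2 ⟨hT, hx⟩)
  obtain ⟨p₀, h0⟩ := n.exists_tp hy.nz_red
  have hx' : ∀ a, u * pv y (n.xi a) ∈ p.V.1 := fun a => hu (Sum.inr a)
  have h2 : ∀ b, p.r (u * pv y (n.uT.F b)) =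
      p.r (u * pv y (n.xi b.1)) * pv (redP p.toPl y) (n.tp b.2) -
        p.r (u * pv y (n.xi b.2)) * pv (redP p.toPl y) (n.tp b.1) := fun b => by
    rw [pv_u, mul_sub, ← mul_assoc, ← mul_assoc,
      r_sub' (mul_mem (hx' _) (pv_mem h1 _)) (mul_mem (hx' _) (pv_mem h1 _)),
      Pl.r_mul (hx' _) (pv_mem h1 _), Pl.r_mul (hx' _) (pv_mem h1 _), r_pv p.lnr h1, r_pv p.lnr h1]
  obtain ⟨t, ht⟩ : ∃ t : E, ∀ a, v ⟨n.jC, n.f (some a)⟩ + t * w ⟨n.jC, n.f (some a)⟩ =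
      p.r (u * pv y (n.xi a)) := by
    refine ⟨(p.r (u * pv y (n.xi p₀)) - v ⟨n.jC, n.f (some p₀)⟩) / pv (redP p.toPl y) (n.tp p₀),
      fun a => ?_⟩
    have h3 := dir_loc (hL (a, p₀)) hy hT (fun a => hu (Sum.inl (Sum.inl a)))
      (hu (Sum.inl (Sum.inr (a, p₀)))) hv1
    rw [dp_u hx, h2] at h3
    rw [hw']
    field_simp
    linear_combination h3
  refine ⟨v + t • w, funext ?_⟩
  rintro ((a | b) | a)
  · change T.jac _ (v + t • w) a = _
    rw [map_add, map_smul, hw, smul_zero, add_zero, hv1]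
    rfl
  · rw [jac_eq]
    exact (dp_u hx _ b).trans ((h2 b).trans (by rw [← ht, ← ht]; rfl)).symm
  · rw [jac_eq]
    exact (dp_xi _ _ a).trans (ht a)

theorem sv_TD (hL : ∀ b, Loc T (n.uT.F b)) (hv : n.Nv T) {p : LP K E} {z : Cfg io I K}
    (hz : z.Pr p.V) (hs : z.sv (n.TD T) ∈ z.Vt (n.TD T)) (hO : (z.red0 p.toPl).On (n.TD T)) {u : K}
    (hu : ∀ x, u * z.sv (n.TD T) x ∈ p.V.1)
    (h : (fun x => p.r (u * z.sv T x)) ∈ (z.red0 p.toPl).Eb T) :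
    (fun x => p.r (u * z.sv (n.TD T) x)) ∈ (z.red0 p.toPl).Eb (n.TD T) :=
  mem_Eb.2 ⟨fun a => Vb.mem_redS p.toPl (u := fun q => u * z.sv (n.TD T) (a, q))
      ((z.V _).smul_mem u (mem_Vt.1 hs a)) fun q => hu (a, q),
    fun q => dir_TD hL hv (hz q) (hO q) (fun a => hu (a, q)) ((mem_Eb.1 h).2 q)⟩

end Cn

/-- the term level comparison of `T` with the end -/
theorem step {B : Th} (hB : B.Ax) (hb : BStmt) (hc : CStmt) (n : Cn io) (h : n.Dg d)
    (hG : Good T c d) (hL : ∀ b, Loc T (n.uT.F b)) (hv : n.Nv T) {TP : Tgt io A'}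
    (hS : Same (sum T n.xT) TP) : ∃ N : ℕ, ∀ {I K : Type} [Fintype I] [Field K] [Algebra ℂ K]
    [Algebra.EssFiniteType ℂ K] (ξ : Dat io d I K), ξ.NrmUp N → ξ.cfg.dv T = ξ.cfg.dv TP ∧
    ∀ {E : Type} [Field E] [Algebra ℂ E] [Algebra.EssFiniteType ℂ E] (p : LP K E) (z : Cfg io I E),
      z = ξ.cfg.red p.toPl → z.On T → z.On (sum T n.xT) ∧ z.On TP ∧
      ((ob B n.jU z).natDegree ≤ d n.jU - 1 ∧
        (ob B n.jU z).coeff (d n.jU - 1) = (-1) ^ (d n.jU - 1)) ∧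
      (¬ ξ.cfg.On T → (cpz B TP z).eval (B.pb p (B.c1 (ξ.cfg.dv T))) = 0 ∧ ∀ q₀ : I,
        exc B T z (B.pb p (B.c1 (ξ.cfg.dv T))) = exc B TP z (B.pb p (B.c1 (ξ.cfg.dv T))) *
          (ob B n.jU z).eval (B.c1 (ln (z.y q₀) n.jS))) := by
  have s1 := Cn.same_TB hL
  have s2 := n.same_TD T
  obtain ⟨N1, h1⟩ := hb B hB n T c d h (Cn.rk_TB hG hL) hv
  obtain ⟨N2, h2⟩ := hc B hB n d h
  obtain ⟨N3, h3⟩ := Eqi.same_cp hB s1
  obtain ⟨N4, h4⟩ := Eqi.same_cp hB s2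
  obtain ⟨N5, h5⟩ := Eqi.same_cp hB hS
  obtain ⟨N6, h6⟩ := rk_of Tree87.rankStmt hG
  refine ⟨N1 + N2 + N3 + N4 + N5 + N6 + 1, fun {I K} _ _ _ _ ξ hN => ?_⟩
  have hm : ∀ N, N ≤ N1 + N2 + N3 + N4 + N5 + N6 + 1 → ξ.NrmUp N :=
    fun N hle κ hκ => hN κ fun j => (hκ j).trans hle
  have hz := Tree87.nz_cfg ξ
  have d1 : ξ.cfg.dv T = ξ.cfg.dv (n.TD T) :=
    (s1.dv_eq hz).trans (Cn.dv_eq h T (hm 1 (by omega) _ n.kq_le))
  refine ⟨d1.trans ((s2.dv_eq hz).trans (hS.dv_eq hz)), ?_⟩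
  rintro E _ _ _ p _ rfl hO
  have hz' := hz.red p.toPl
  have ht := Bub96.tl_red hN p.toPl
  have o1 := (s1.cfg_on hz').1 hO
  have o2 := Cn.tl_x h (ht.mono (by omega)) (cfg_on_sum.1 o1).2
  have o3 : (ξ.cfg.red p.toPl).On (n.TD T) := cfg_on_sum.2 ⟨o1, o2⟩
  have o4 : (ξ.cfg.red p.toPl).On (sum T n.xT) := cfg_on_sum.2 ⟨hO, o2⟩
  obtain ⟨e1, e2⟩ := h1 ξ (hm _ (by omega)) p _ rfl o3
  obtain ⟨e3, e4⟩ := h2 ξ (hm _ (by omega)) p _ rfl
  have e5 : cpz B (n.TD T) (ξ.cfg.red p.toPl) = cpz B TP (ξ.cfg.red p.toPl) :=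
    (h4 (by omega) ht o3).trans (h5 (by omega) ht o4)
  refine ⟨o4, (hS.cfg_on hz').1 o4, e3, fun hn => ?_⟩
  have r1 := root_of hB hz (T := n.TD T) (fun h' => hn (cfg_on_sum.1 (cfg_on_sum.1 h').1).1) p
    fun u hu => Cn.sv_TD hL hv (Cfg.pr_nrm hz _) (Tree87.sv_mem_cfg _ ξ _) o3 hu
      ((h6 ξ hz (hm _ (by omega))).sv p hO u fun x => hu (Sum.inl (Sum.inl x.1), x.2))
  rw [← d1] at r1
  refine ⟨e5 ▸ r1, fun q₀ => ?_⟩
  obtain ⟨p₀, -⟩ := n.exists_tp (hz' q₀)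
  rw [exc_eq, exc_eq, ← e5]
  exact cq_step (Fintype.card_pos_iff.2 ⟨p₀⟩).ne'
    ((h3 (by omega) ht hO).trans (e1.trans (by rw [e4 o2 q₀]))) e2 r1

end Crest.Agent.X262.Conc78
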